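import Vale.Agent.P022D.Core.Defs

namespace Vale.Agent.P022F.Core.HD
export Vale.Agent.P022D.Core.HD (
  new grp piC unr one Peq mul soc0 Pran qran locM Py q b one0 nilM pi0 cyc mul0 relM P loc0
  desc free ρ0 relC locC flat socM mk Pker ρ qker piM big)
end Vale.Agent.P022F.Core.HD

namespace Vale.Agent.P022F.Core
export Vale.Agent.P022D.Core (
  io I0 ac REPH fx LOCH END nm DUAL PD PS ty HD CD sp aug Coef GD kr SPLIT y1)
end Vale.Agent.P022F.Core

namespace Vale.Agent.P022F.Core.CD
export Vale.Agent.P022D.Core.CD (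
  f c mk Dl w kill xv y τl Pt rel x D y2 tq Out dq)
end Vale.Agent.P022F.Core.CD

namespace Vale.Agent.P022F.Core.LOCH
export Vale.Agent.P022D.Core.LOCH (
  mk dim len card tr)
end Vale.Agent.P022F.Core.LOCH

namespace Vale.Agent.P022F.Core.Coef
export Vale.Agent.P022D.Core.Coef (
  fin ne two cpl mk)
end Vale.Agent.P022F.Core.Coef

namespace Vale.Agent.P022F.Core.PD
export Vale.Agent.P022D.Core.PD (
  desc mk Pker ρ0 qker flat ρ Pran piM big new piC unr grp b q fin0 Py genC Peq pi0 cyc
  qran relM P genM free nilM relC)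
end Vale.Agent.P022F.Core.PD

namespace Vale.Agent.P022F.Core.CD.Pt
export Vale.Agent.P022D.Core.CD.Pt (
  xm xX xt ym xC xd xD xw mk xf)
end Vale.Agent.P022F.Core.CD.Pt

namespace Vale.Agent.P022F.Core.GD
export Vale.Agent.P022D.Core.GD (
  Bl Gl m e S mk kk)
end Vale.Agent.P022F.Core.GD
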